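import Mathlib
import Vale.Agent.P343.Defs
import Vale.Agent.P343.Auto

namespace Vale.Agent.Results.P343.Main

open Vale.Agent.P343

/-- The Sakoda-Sipser problem: determinizing one-way (hence also two-way) nondeterministic
automata into two-way deterministic automata has superpolynomial cost. -/
theorem result :
    (¬ ∃ p : Polynomial ℝ, ∀ (σ : Type) [Finite σ] (n : ℕ) (A : TwoNFA σ n),
      ∃ (m : ℕ) (B : TwoNFA σ m), (m : ℝ) ≤ p.eval (n : ℝ) ∧ B.Det ∧ B.lang = A.lang) ∧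
    (¬ ∃ p : Polynomial ℝ, ∀ (σ : Type) [Finite σ] (n : ℕ) (A : TwoNFA σ n), A.OneWay →
      ∃ (m : ℕ) (B : TwoNFA σ m), (m : ℝ) ≤ p.eval (n : ℝ) ∧ B.Det ∧ B.lang = A.lang) ∧
    (∀ j : ℕ, ∃ (σ : Type) (_ : Finite σ) (A : TwoNFA σ (100 * j ^ 2 + 103 * j + 3)), A.OneWay ∧
      ∀ (m : ℕ) (B : TwoNFA σ m), B.Det → B.lang = A.lang → 2 ^ j ≤ 8 * m) := by
  have h2 : ¬ ∃ p : Polynomial ℝ, ∀ (σ : Type) [Finite σ] (n : ℕ) (A : TwoNFA σ n), A.OneWay →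
      ∃ (m : ℕ) (B : TwoNFA σ m), (m : ℝ) ≤ p.eval (n : ℝ) ∧ B.Det ∧ B.lang = A.lang := by
    rintro ⟨p, hp⟩
    obtain ⟨j, hj⟩ := exists_big p
    obtain ⟨m, B, h1, h2, h3⟩ := hp _ _ (owl (100 * j ^ 2 + 103 * j + 2)) (owl_oneWay _)
    have h4 := (Nat.cast_le (α := ℝ)).mpr (lower_bound j m B h2 h3)
    push_cast at h1 h4 hj
    rw [add_assoc _ 2 1, show (2 : ℝ) + 1 = 3 by norm_num] at h1
    linarith
  exact ⟨fun ⟨p, hp⟩ => h2 ⟨p, fun σ _ n A _ => hp σ n A⟩, h2, fun j =>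
    ⟨_, inferInstance, owl (100 * j ^ 2 + 103 * j + 2), owl_oneWay _, lower_bound j⟩⟩

end Vale.Agent.Results.P343.Main
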